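import Vale.Agent.P225.System.Coeff.Bootstrap

/-!
P225, module F: the path below `r₂` and the regular solution there, in logarithmic time.
-/

noncomputable section

namespace Vale.Agent.P225.IsCoeffAux

open Matrix Set SU2
open scoped ContDiff Topology

variable {d : PathData} {r₂ β φ₀ : ℝ}

/-- The damping is the same for all parameters. -/
theorem det_pathQ (hd : d.Good r₂ β φ₀) {p : Param} (hp : InBox d p) (t : ℝ) :
    (toLink (pathQ d p t)).det = (toLink (pathQ d (fun _ _ _ => 0) t)).det := by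
  by_cases h : ∃ il, InStage d t il
  · obtain ⟨⟨i, l⟩, hl, h1, h2⟩ := h
    have hQ := (pathQ_inStage hd hl ⟨h1, h2⟩ p).2
    have hpos := hd.pathQ_pos p hp t
    rw [hQ] at hpos
    rw [hQ, (pathQ_inStage hd hl ⟨h1, h2⟩ fun _ _ _ => 0).2,
      Free.stageQ_zero _ _ _ _ (hd.scale_pos t).ne', Sched.toLink_eq, Sched.toLink_eq,
      Matrix.det_submatrix_equiv_self, Matrix.det_submatrix_equiv_self]
    simp only [stageQ] at hpos ⊢
    set B := SU2.adQ ((d.plan (d.j₀ + i))[l]).gauge (linePar (d.scale t)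
      (stageTheta ((d.plan (d.j₀ + i))[l]) (speed (d.j₀ + i) * (t - stageStart d i l)))
      ((d.plan (d.j₀ + i))[l]).gauge)
    set C := B + (Real.sqrt 3 * d.scale t * speed (d.j₀ + i)) •
      stageCtrl ((d.plan (d.j₀ + i))[l]) (p i l) (speed (d.j₀ + i) * (t - stageStart d i l))
    have hB : 0 < B.det := (Sched.stage_base_posDef _ (hd.scale_pos t) _).det_pos
    have hd0 := hpos.det_pos
    rw [det_smul] at hd0
    have hC : 0 < C.det := by
      refine pos_of_mul_pos_right hd0 ?_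
      exact (by decide : Even (Fintype.card (Bool × Fin 3))).pow_nonneg _
    rw [det_smul, show Fintype.card (Bool × Fin 3) = 6 by decide, ← Real.rpow_natCast,
      ← Real.rpow_mul (div_pos hB hC).le, show (1 / 6 : ℝ) * ((6 : ℕ) : ℝ) = 1 by norm_num,
      Real.rpow_one, div_mul_cancel₀ _ hC.ne']
  · unfold pathQ
    rw [dif_neg h, dif_neg h]

theorem pathDamp_param (hd : d.Good r₂ β φ₀) {p : Param} (hp : InBox d p) (s : ℝ) :
    pathDamp d s = 5 + deriv (fun u => Real.log ((toLink (pathQ d p u))⁻¹).det) s / 2 := by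
  have e : (fun u => Real.log ((toLink (pathQ d p u))⁻¹).det) =
      fun u => Real.log ((toLink (pathQ d (fun _ _ _ => 0) u))⁻¹).det := funext fun u => by
    rw [Matrix.det_nonsing_inv, Matrix.det_nonsing_inv, det_pathQ hd hp]
  rw [e]
  rfl

/-- `μ exp (2 t)`. -/
def coreS (β : ℝ) (x : Pnt) (t : ℝ) : ℝ := coreEig β x * Real.exp (2 * t)

/-- The regular solution in logarithmic time. -/
def coreG (β : ℝ) (x : Pnt) (t : ℝ) : ℝ :=
  Real.exp ((lab x 1 : ℝ) * t) * coreFn (lab x 1) (coreS β x t)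

/-- Its logarithmic derivative. -/
def coreW (β : ℝ) (x : Pnt) (t : ℝ) : ℝ := (lab x 1 : ℝ) + Free.corePhi (lab x 1) (coreS β x t)

theorem coreG_eq (β : ℝ) (x : Pnt) (t : ℝ) :
    coreG β x t = Real.exp t ^ lab x 1 * coreFn (lab x 1) (coreEig β x * Real.exp t ^ 2) := by
  rw [coreG, coreS, ← Real.exp_nat_mul t (lab x 1), ← Real.exp_nat_mul t 2, Nat.cast_ofNat]

theorem coreS_nonneg (hβ : 0 < β) (x : Pnt) (t : ℝ) : 0 ≤ coreS β x t := by
  unfold coreS coreEig
  positivity

theorem coreG_pos (hβ : 0 < β) (x : Pnt) (t : ℝ) : 0 < coreG β x t :=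
  mul_pos (Real.exp_pos _)
    (zero_lt_one.trans_le (Free.one_le_coreFn _ (coreS_nonneg hβ x t)))

theorem coreW_nonneg (hβ : 0 < β) (x : Pnt) (t : ℝ) : 0 ≤ coreW β x t := by
  have h := coreS_nonneg hβ x t
  have := Free.coreFn'_nonneg (lab x 1) h
  have := Free.one_le_coreFn (lab x 1) h
  unfold coreW Free.corePhi
  positivity

theorem hasDerivAt_coreS (β : ℝ) (x : Pnt) (t : ℝ) :
    HasDerivAt (coreS β x) (2 * coreS β x t) t :=
  ((((hasDerivAt_id t).const_mul 2).exp).const_mul (coreEig β x)).congr_deriv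
    (by simp [coreS]; ring)

theorem hasDerivAt_coreG (hβ : 0 < β) (x : Pnt) (t : ℝ) :
    HasDerivAt (coreG β x) (coreW β x t * coreG β x t) t := by
  have hF : coreFn (lab x 1) (coreS β x t) ≠ 0 :=
    (zero_lt_one.trans_le (Free.one_le_coreFn _ (coreS_nonneg hβ x t))).ne'
  refine (((hasDerivAt_id t).const_mul (lab x 1 : ℝ)).exp.fun_mul
    ((Free.hasDerivAt_coreFn (lab x 1) _).comp t (hasDerivAt_coreS β x t))).congr_deriv ?_
  simp only [coreW, coreG, Free.corePhi, id, Function.comp]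
  field_simp

theorem hasDerivAt_coreG' (hβ : 0 < β) (x : Pnt) (t : ℝ) :
    HasDerivAt (fun u => coreW β x u * coreG β x u)
      (((lab x 1 : ℝ) * ((lab x 1 : ℝ) + 2) + coreS β x t) * coreG β x t -
        2 * (coreW β x t * coreG β x t)) t := by
  obtain ⟨D, hD, hD2⟩ := Free.hasDerivAt_corePhi (lab x 1) (coreS_nonneg hβ x t)
  refine (((hD.comp t (hasDerivAt_coreS β x t)).const_add (lab x 1 : ℝ)).fun_mul
    (hasDerivAt_coreG hβ x t)).congr_deriv ?_
  simp only [coreW, Function.comp]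
  linear_combination coreG β x t * hD2

theorem coreG_mono (hβ : 0 < β) (x : Pnt) : Monotone (coreG β x) :=
  monotone_of_deriv_nonneg (fun t => (hasDerivAt_coreG hβ x t).differentiableAt) fun t => by
    rw [(hasDerivAt_coreG hβ x t).deriv]
    exact mul_nonneg (coreW_nonneg hβ x t) (coreG_pos hβ x t).le

/-- The logarithmic derivative grows at most quadratically in the size. -/
theorem coreW_le (hβ : 0 < β) (x : Pnt) {t L : ℝ} (h : t ≤ L) :
    coreW β x t ≤ (2 + Real.exp (2 * L) / β) * ((ptSize x : ℝ) + 1) ^ 2 := by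
  have hs := coreS_nonneg hβ x t
  obtain ⟨r0, r1, -⟩ := Free.coreRoot_spec (lab x 1) hs
  have hb := (Free.corePhi_bounds (lab x 1) hs).2
  set n : ℝ := (ptSize x : ℝ) + 1
  have hn : ∀ k, (lab x k : ℝ) + 1 ≤ n := fun k => by
    have : lab x k ≤ ptSize x :=
      Finset.single_le_sum (f := fun k => lab x k) (fun i _ => Nat.zero_le _) (Finset.mem_univ k)
    have : (lab x k : ℝ) ≤ ptSize x := by exact_mod_cast this
    linarith
  have h1 : Free.coreRoot (lab x 1) (coreS β x t) ≤ 1 + coreS β x t := by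
    have : 0 ≤ (2 * (lab x 1 : ℝ) + 2) * Free.coreRoot (lab x 1) (coreS β x t) := by positivity
    nlinarith [sq_nonneg (Free.coreRoot (lab x 1) (coreS β x t) - 1)]
  have h2 : coreS β x t ≤ n ^ 2 * (Real.exp (2 * L) / β) := by
    have e : Real.exp (2 * t) ≤ Real.exp (2 * L) := Real.exp_le_exp.2 (by linarith)
    have h22 : (lab x 2 : ℝ) * ((lab x 2 : ℝ) + 2) ≤ n ^ 2 := by
      nlinarith [hn 2, (Nat.cast_nonneg _ : (0 : ℝ) ≤ (lab x 2 : ℝ))]
    calc coreS β x t = ((lab x 2 : ℝ) * ((lab x 2 : ℝ) + 2)) * (Real.exp (2 * t) / β) := by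
          unfold coreS coreEig; ring
      _ ≤ n ^ 2 * (Real.exp (2 * L) / β) :=
          mul_le_mul h22 (div_le_div_of_nonneg_right e hβ.le) (by positivity) (by positivity)
  have hn0 : 1 ≤ n := le_add_of_nonneg_left (Nat.cast_nonneg _)
  have h3 : (lab x 1 : ℝ) + 1 ≤ 2 * n ^ 2 := by nlinarith [hn 1]
  rw [coreW]
  linarith

/-- Below `r₂` the path is the flat core in every parameter. -/
theorem core_path (hd : d.Good r₂ β φ₀) (p : Param) {t : ℝ} (ht : t < Real.log r₂) :
    pathGauge d t = 0 ∧ pathQ d p t = SU2.adQ 0 ![0, 4, 4 * Real.exp (2 * t) / β] ∧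
      pathDamp d t = 2 := by
  have hlate := hd.pre_late
  obtain ⟨hG, hQ⟩ := pathQ_outside hd p (t := t) fun il h => by
    linarith [h.2.1, Free.clusterStart_le hd (i := il.1) (l := il.2)]
  refine ⟨hG, by rw [hQ, if_neg (by linarith), hd.pre_core t ht], ?_⟩
  have hpar : ∀ u, u < Real.log r₂ → basePar d u = ![0, 4, 4 * Real.exp (2 * u) / β] :=
    fun u hu => (Free.basePar_early hd (by linarith)).trans (hd.pre_core u hu)
  have he : (fun w => Real.log (Free.e2 (basePar d w))) =ᶠ[𝓝 t]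
      fun w => Real.log (16 / β) + 2 * w := by
    filter_upwards [Iio_mem_nhds ht] with w hw
    have := hd.β_pos
    rw [hpar w hw, show Free.e2 ![0, 4, 4 * Real.exp (2 * w) / β] = 16 / β * Real.exp (2 * w) by
      simp [Free.e2]; ring, Real.log_mul (by positivity) (by positivity), Real.log_exp]
  rw [Free.pathDamp_eq hd]
  simp only [he.deriv_eq]
  rw [(((hasDerivAt_id' t).const_mul (2 : ℝ)).const_add (Real.log (16 / β))).deriv]
  norm_num

theorem core_row (hd : d.Good r₂ β φ₀) (p : Param) {t : ℝ} (ht : t < Real.log r₂) (c : Pnt → ℂ)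
    (x : Pnt) :
    pathRow d p t c x =
      (((lab x 1 : ℝ) * ((lab x 1 : ℝ) + 2) + coreS β x t : ℝ) : ℂ) * c x := by
  obtain ⟨hG, hQ, -⟩ := core_path hd p ht
  rw [pathRow, pathOp, hQ, hG, Sched.rowSum_adQ]
  congr 2
  simp [Fin.sum_univ_three, cas, coreS, coreEig]
  ring

end Vale.Agent.P225.IsCoeffAux
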